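import Vale.Agent.P126.Disproof

/-!
The duality conjecture for metric entropy is false.
-/

namespace Vale.Agent.Results.P126.DualityFails

open Vale.Agent.P126 Pointwise

/-- For every scale `a` and every factor `b` there are origin-symmetric convex bodies `K, L` with
`log N(K, L) > b * log N(L°, a⁻¹ K°)`. -/
theorem result : ∀ a : ℝ, 0 < a → ∀ b : ℝ,
    ∃ (n : ℕ) (K L : Set (Fin n → ℝ)), 1 ≤ n ∧
      IsCompact K ∧ Convex ℝ K ∧ (interior K).Nonempty ∧ -K = K ∧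
      IsCompact L ∧ Convex ℝ L ∧ (interior L).Nonempty ∧ -L = L ∧
      ∃ C : Finset (Fin n → ℝ), C.Nonempty ∧
        {y : Fin n → ℝ | ∀ x ∈ L, ∑ i, x i * y i ≤ 1} ⊆
          ⋃ c ∈ C, c +ᵥ a⁻¹ • {y : Fin n → ℝ | ∀ x ∈ K, ∑ i, x i * y i ≤ 1} ∧
        ∀ C' : Finset (Fin n → ℝ), K ⊆ ⋃ c ∈ C', c +ᵥ L →
          b * Real.log C.card < Real.log C'.card :=
  fun a ha b => disproof a ha b

end Vale.Agent.Results.P126.DualityFails
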